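import Vale.Agent.P151.Zd.Energy
import Vale.Agent.P151.Basic

/-!
# No percolation below one on virtually cyclic groups
-/

namespace Vale.Agent.P151.EA

open MeasureTheory Filter Topology Finset Vale.Agent.P165

variable {Γ : Type} [Group Γ] [DecidableEq Γ] {S : Finset Γ}

/-- All edges of a finite set are closed. -/
theorem real_closed {V : Type} [DecidableEq V] {G : SimpleGraph V} (p : unitInterval)
    {F : Finset (Sym2 V)} (hF : ↑F ⊆ G.edgeSet) :
    MeasurableSet (pattern G F ∅) ∧ (perc G p).real (pattern G F ∅) = (1 - (p : ℝ)) ^ F.card := by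
  obtain ⟨h1, h2⟩ := real_pattern p hF (empty_subset F)
  exact ⟨h1, by rw [h2, wt]; simp⟩

/-- An integer height on a virtually cyclic group, moved boundedly by edges. -/
theorem exists_height [Infinite Γ] (x : Γ) (hx : (Subgroup.zpowers x).FiniteIndex) :
    ∃ φ : Γ → ℤ, (∀ a b : ℤ, {g | a ≤ φ g ∧ φ g ≤ b}.Finite) ∧
      (∃ C : ℕ, ∀ a b : ℤ, {g | a ≤ φ g ∧ φ g ≤ b}.ncard ≤ (b + 1 - a).toNat * C) ∧
      ∀ S : Finset Γ, ∃ D : ℕ, ∀ g, ∀ s ∈ S, |φ (g * s) - φ g| ≤ D := by
  classical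
  set H := Subgroup.zpowers x
  have hq : Finite (Γ ⧸ H) := Subgroup.finite_quotient_of_finiteIndex
  have := Fintype.ofFinite (Γ ⧸ H)
  have hord : ¬IsOfFinOrder x := by
    intro h
    have : Finite H := h.finite_zpowers
    exact not_finite_iff_infinite.2 ‹Infinite Γ›
      (Finite.of_equiv _ (Subgroup.groupEquivQuotientProdSubgroup (s := H)).symm)
  have hinj : Function.Injective (fun n : ℤ => x ^ n) :=
    injective_zpow_iff_not_isOfFinOrder.2 hord
  -- `g = x ^ φ g * ρ` with `ρ` in a finite set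
  set R : Finset Γ := Finset.univ.image fun q : Γ ⧸ H => q.out⁻¹ with hR
  have hdec : ∀ g : Γ, ∃ j : ℤ, g = x ^ j * ((g⁻¹ : Γ) : Γ ⧸ H).out⁻¹ := by
    intro g
    obtain ⟨k, hk⟩ := QuotientGroup.eq.1 ((g⁻¹ : Γ) : Γ ⧸ H).out_eq'
    refine ⟨-k, ?_⟩
    have hk' : x ^ k = ((g⁻¹ : Γ) : Γ ⧸ H).out⁻¹ * g⁻¹ := hk
    rw [zpow_neg, hk']
    group
  choose φ hφ using hdec
  have hshift : ∀ (i : ℤ) (g : Γ), φ (x ^ i * g) = i + φ g := by
    intro i g
    have hco : (((x ^ i * g)⁻¹ : Γ) : Γ ⧸ H) = ((g⁻¹ : Γ) : Γ ⧸ H) :=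
      QuotientGroup.eq.2 ⟨i, by group⟩
    have h1 := hφ (x ^ i * g)
    rw [hco] at h1
    nth_rw 1 [hφ g] at h1
    rw [← mul_assoc, ← zpow_add] at h1
    exact (hinj (mul_right_cancel h1)).symm
  have hmem : ∀ a b g, a ≤ φ g → φ g ≤ b →
      g ∈ ((Finset.Icc a b) ×ˢ R).image fun q => x ^ q.1 * q.2 := fun a b g ha hb =>
    Finset.mem_image.2 ⟨(φ g, ((g⁻¹ : Γ) : Γ ⧸ H).out⁻¹), Finset.mem_product.2
      ⟨Finset.mem_Icc.2 ⟨ha, hb⟩, Finset.mem_image.2 ⟨_, Finset.mem_univ _, rfl⟩⟩, (hφ g).symm⟩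
  refine ⟨φ, fun a b => (Finset.finite_toSet _).subset fun g hg => hmem a b g hg.1 hg.2,
    ⟨R.card, fun a b => ?_⟩, fun S => ?_⟩
  · refine (Set.ncard_le_ncard (fun g hg => hmem a b g hg.1 hg.2) (Finset.finite_toSet _)).trans ?_
    rw [Set.ncard_coe_finset]
    refine Finset.card_image_le.trans ?_
    rw [Finset.card_product, Int.card_Icc]
  · refine ⟨(R ×ˢ S).sup fun q => (φ (q.1 * q.2) - φ q.1).natAbs, fun g s hs => ?_⟩
    set r := ((g⁻¹ : Γ) : Γ ⧸ H).out⁻¹ with hr
    have h1 : φ (g * s) = φ g + φ (r * s) := by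
      conv_lhs => rw [hφ g, ← hr, mul_assoc, hshift]
    have h2 : φ r = 0 := by
      have := hshift (φ g) r
      rw [← hφ g] at this
      linarith
    have h3 : (φ (r * s) - φ r).natAbs ≤ (R ×ˢ S).sup fun q => (φ (q.1 * q.2) - φ q.1).natAbs :=
      Finset.le_sup (f := fun q : Γ × Γ => (φ (q.1 * q.2) - φ q.1).natAbs)
        (Finset.mem_product.2 ⟨Finset.mem_image.2 ⟨_, Finset.mem_univ _, rfl⟩, hs⟩ :
          ((r, s) : Γ × Γ) ∈ R ×ˢ S)
    rw [h1, add_sub_cancel_left, Int.abs_eq_natAbs]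
    exact_mod_cast (by simpa [h2] using h3 :
      (φ (r * s)).natAbs ≤ (R ×ˢ S).sup fun q => (φ (q.1 * q.2) - φ q.1).natAbs)

/-- On a virtually cyclic group there is no infinite cluster below one. -/
theorem no_infinite_below_one (hS : Gens S) (hc : (cayley S).Connected) [Infinite Γ] (x : Γ)
    (hx : (Subgroup.zpowers x).FiniteIndex) (p : unitInterval) (hp : (p : ℝ) < 1) :
    perc (cayley S) p (hasInfinite (cayley S)) = 0 := by
  classical
  set G := cayley S
  have hl : Listing G (nb S) := hS.labelling.listing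
  have : Countable Γ := countable_of_connected hl hc
  obtain ⟨φ, hfin, ⟨C, hC⟩, hstep⟩ := exists_height x hx
  obtain ⟨D, hD⟩ := hstep S
  set lev : ℕ → Finset Γ := fun n => (hfin (n : ℤ) ((n : ℤ) + D)).toFinset ∪
    (hfin (-((n : ℤ) + D)) (-(n : ℤ))).toFinset with hlev
  set F : ℕ → Finset (Sym2 Γ) := fun n => (lev n).biUnion fun g => S.image fun s => s(g, g * s)
    with hF
  have hFG : ∀ n, ↑(F n) ⊆ G.edgeSet := fun n e he => by
    simp only [hF, Finset.coe_biUnion, Set.mem_iUnion, Finset.mem_coe, Finset.mem_image] at he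
    obtain ⟨g, -, s, hs, rfl⟩ := he
    exact hS.adj.2 (by simpa using hs)
  set m := 2 * ((D + 1) * C) * S.card
  have hcard : ∀ n, (F n).card ≤ m := fun n => by
    refine Finset.card_biUnion_le.trans ((Finset.sum_le_card_nsmul _ _ S.card fun g _ =>
      Finset.card_image_le).trans ?_)
    rw [smul_eq_mul]
    refine Nat.mul_le_mul_right _ ((Finset.card_union_le _ _).trans ?_)
    have h1 := hC (n : ℤ) ((n : ℤ) + D)
    have h2 := hC (-((n : ℤ) + D)) (-(n : ℤ))
    rw [Set.ncard_eq_toFinset_card _ (hfin _ _),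
      show ((n : ℤ) + D + 1 - n).toNat = D + 1 by omega] at h1
    rw [Set.ncard_eq_toFinset_card _ (hfin _ _),
      show (-(n : ℤ) + 1 - -((n : ℤ) + D)).toNat = D + 1 by omega] at h2
    omega
  set B : ℕ → Set (Config G) := fun N => ⋃ n ≥ N, pattern G (F n) ∅
  have hBm : ∀ N, MeasurableSet (B N) := fun N =>
    MeasurableSet.iUnion fun n => MeasurableSet.iUnion fun _ => (real_closed p (hFG n)).1
  set c := (1 - (p : ℝ)) ^ m
  have hc0 : 0 < c := pow_pos (by linarith) _
  have hB : ∀ N, ENNReal.ofReal c ≤ perc G p (B N) := fun N => by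
    refine le_trans ?_ (measure_mono (Set.subset_iUnion₂ (s := fun n _ => pattern G (F n) ∅) N le_rfl))
    rw [← ofReal_measureReal, (real_closed p (hFG N)).2]
    exact ENNReal.ofReal_le_ofReal
      (pow_le_pow_of_le_one (by linarith) (by linarith [p.2.1]) (hcard N))
  have hanti : Antitone B := fun a b hab =>
    Set.iUnion₂_subset fun n hn => Set.subset_iUnion₂ (s := fun n _ => pattern G (F n) ∅) n (hab.trans hn)
  have hlim := tendsto_measure_iInter_atTop (μ := perc G p) (fun N => (hBm N).nullMeasurableSet)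
    hanti ⟨0, measure_ne_top _ _⟩
  have hge : ENNReal.ofReal c ≤ perc G p (⋂ N, B N) := ge_of_tendsto' hlim hB
  -- a closed pair of slabs encloses every cluster inside
  have hdisj : ∀ ω ∈ ⋂ N, B N, ω ∉ hasInfinite G := by
    intro ω hω hinf
    rw [hasInfinite_eq, Set.mem_iUnion] at hinf
    obtain ⟨y, hy⟩ := hinf
    rw [Set.mem_iInter] at hω
    obtain ⟨n, hn, hωn⟩ : ∃ n, (φ y).natAbs + 1 ≤ n ∧ ω ∈ pattern G (F n) ∅ := by
      have h := hω ((φ y).natAbs + 1)
      simp only [B, Set.mem_iUnion, exists_prop] at h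
      obtain ⟨n, hn, h'⟩ := h
      exact ⟨n, hn, h'⟩
    refine hy ((hfin (-(n : ℤ)) n).subset fun z hz => ?_)
    have hin : ∀ {u v : Γ}, (openGraph G ω).Walk u v → -(n : ℤ) < φ u → φ u < n →
        -(n : ℤ) < φ v ∧ φ v < n := by
      intro u v w
      induction w with
      | nil => exact fun h1 h2 => ⟨h1, h2⟩
      | @cons a b d hab w ih =>
        intro h1 h2
        obtain ⟨hG, hop⟩ := hab
        have hs : a⁻¹ * b ∈ S := hS.adj.1 hG
        have h3 := abs_le.1 (hD a _ hs)
        rw [mul_inv_cancel_left] at h3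
        by_cases hb : -(n : ℤ) < φ b ∧ φ b < n
        · exact ih hb.1 hb.2
        exfalso
        have hblev : b ∈ lev n := by
          simp only [hlev, Finset.mem_union, Set.Finite.mem_toFinset, Set.mem_ofPred_eq]
          omega
        have hmem : s(b, a) ∈ F n := Finset.mem_biUnion.2 ⟨b, hblev, Finset.mem_image.2
          ⟨b⁻¹ * a, by simpa [mul_inv_rev] using hS.inv _ hs, by rw [mul_inv_cancel_left]⟩⟩
        have := (hωn ⟨s(a, b), hG⟩ (show s(a, b) ∈ F n from Sym2.eq_swap ▸ hmem)).1 hop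
        exact Finset.notMem_empty _ this
    obtain ⟨w⟩ := hz
    have := hin w (by omega) (by omega)
    exact ⟨this.1.le, this.2.le⟩
  rcases Zd.hasInfinite_zero_or_one hl p with h | h
  · exact h
  exfalso
  have hsum : perc G p (hasInfinite G ∪ ⋂ N, B N)
      = perc G p (hasInfinite G) + perc G p (⋂ N, B N) :=
    measure_union (Set.disjoint_right.2 hdisj) (MeasurableSet.iInter hBm)
  have h1 : perc G p (hasInfinite G ∪ ⋂ N, B N) ≤ 1 := prob_le_one
  rw [hsum, h] at h1
  have h2 : perc G p (⋂ N, B N) = 0 := by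
    have := ENNReal.le_sub_of_add_le_left ENNReal.one_ne_top h1
    simpa using this
  rw [h2, le_zero_iff, ENNReal.ofReal_eq_zero] at hge
  linarith

/-- The critical point of a virtually cyclic Cayley graph is not below one. -/
theorem not_pc_lt_one (hS : Gens S) (hc : (cayley S).Connected) [Infinite Γ] (x : Γ)
    (hx : (Subgroup.zpowers x).FiniteIndex) : ¬pc (cayley S) < 1 := by
  intro hpc
  rcases Set.eq_empty_or_nonempty
    (Subtype.val '' {p : unitInterval | 0 < perc (cayley S) p (hasInfinite (cayley S))}) with h | h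
  · -- percolation at one
    have hone : (1 : ℝ) ∈ Subtype.val ''
        {p : unitInterval | 0 < perc (cayley S) p (hasInfinite (cayley S))} := by
      refine ⟨1, ?_, rfl⟩
      show 0 < perc _ 1 _
      have hl : Listing (cayley S) (nb S) := hS.labelling.listing
      have : Countable Γ := countable_of_connected hl hc
      have h1 := perc_one_unique (G := cayley S) hc
      refine lt_of_lt_of_le (by rw [h1]; exact zero_lt_one) (measure_mono fun ω hω => ?_)
      obtain ⟨c, hc', -⟩ := hω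
      exact ⟨c, hc'⟩
    rw [h] at hone
    exact hone
  · obtain ⟨_, ⟨q, hq, rfl⟩, hq1⟩ := exists_lt_of_csInf_lt h hpc
    exact hq.ne' (no_infinite_below_one hS hc x hx q hq1)

end Vale.Agent.P151.EA
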