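import Vale.Agent.P151.EA.Split
import Vale.Agent.P151.EA.TwoEnded
import Vale.Agent.P151.Zt.CayleyChart
import Vale.Agent.P151.Zt.Periodic
import Vale.Agent.P151.Stretched.Main

/-!
# No percolation at the critical point for Cayley graphs of elementary amenable groups

Nonamenable Cayley graphs and those with a free pair grow exponentially, which the stretched
exponential theorem covers; a virtual map onto `ℤ ^ 2` gives a chart.
-/

namespace Vale.Agent.P151.EA

open MeasureTheory Finset Real Vale.Agent.P165

variable {Γ : Type} [Group Γ] [DecidableEq Γ] {S : Finset Γ}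

/-- Exponential growth puts the critical point in the stretched case. -/
theorem critical_of_exponential (hS : Gens S) [Infinite Γ] (hc : (cayley S).Connected)
    (hpc : pc (cayley S) < 1) {c : ℝ} (hc0 : 0 < c)
    (h : ∀ r : ℕ, 1 ≤ r → exp (c * r) ≤ ((ball S r).card : ℝ)) (p : unitInterval)
    (hp : (p : ℝ) = pc (cayley S)) : perc (cayley S) p (hasInfinite (cayley S)) = 0 :=
  Stretched.no_percolation_of_stretched hS hc hpc hc0 one_pos
    (fun r hr => by rw [rpow_one]; exact h r hr) p hp

/-- A free pair gives exponential growth. -/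
theorem exists_exp_of_freePair (hS : Gens S) [Infinite Γ] (hc : (cayley S).Connected)
    (h : HasFreePair Γ) :
    ∃ c : ℝ, 0 < c ∧ ∀ r : ℕ, 1 ≤ r → exp (c * r) ≤ ((ball S r).card : ℝ) := by
  obtain ⟨a, b, hab⟩ := h
  obtain ⟨wa⟩ := hc.preconnected 1 a
  obtain ⟨wb⟩ := hc.preconnected 1 b
  set L := max wa.length wb.length + 1 with hL
  have hmem : ∀ g : Γ, ∀ w : (cayley S).Walk 1 g, w.length ≤ L → g ∈ ball S L := fun g w hw => by
    have := ball_mono (S := S) hw (mem_ball_of_walk hS w)
    simpa using this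
  have ha : a ∈ ball S L := hmem a wa (by omega)
  have hb : b ∈ ball S L := hmem b wb (by omega)
  have hword : ∀ l : List Bool, word a b l ∈ ball S (L * l.length) := by
    intro l
    induction l with
    | nil => simp [word, ball]
    | cons e l ih =>
      simp only [word] at ih
      have := mem_ball_add (S := S) (show (if e then a else b) ∈ ball S L by cases e <;> simp [ha, hb]) ih
      simpa [word, mul_add, add_comm] using this
  have hpow : ∀ m : ℕ, 2 ^ m ≤ (ball S (L * m)).card := fun m => by
    have h1 : (Finset.univ.image fun v : Fin m → Bool => word a b (List.ofFn v)).card = 2 ^ m := by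
      rw [Finset.card_image_of_injective _ fun v v' he => List.ofFn_injective
        (hab _ _ (by simp) he)]
      simp
    rw [← h1]
    refine Finset.card_le_card fun g hg => ?_
    obtain ⟨v, -, rfl⟩ := Finset.mem_image.1 hg
    simpa using hword (List.ofFn v)
  have htwo : 2 ≤ (ball S 1).card := by
    obtain ⟨g, hg⟩ : ∃ g, (cayley S).Adj 1 g := hc.preconnected.exists_adj_of_nontrivial 1
    refine Finset.one_lt_card.2 ⟨1, one_mem_ball 1, g, ?_, hg.ne⟩
    have h1 : g ∈ S := by simpa using hS.adj.1 hg
    simp [ball, h1]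
  have hL0 : (0 : ℝ) < L := by positivity
  refine ⟨log 2 / (2 * L), by positivity, fun r hr => ?_⟩
  rcases Nat.lt_or_ge r (2 * L) with hr2 | hr2
  · have h2 : (2 : ℝ) ≤ (ball S r).card := by
      exact_mod_cast htwo.trans (Finset.card_le_card (ball_mono hr))
    refine le_trans ?_ h2
    rw [← exp_log (by norm_num : (0 : ℝ) < 2)]
    refine exp_le_exp.2 ?_
    rw [div_mul_eq_mul_div, div_le_iff₀ (by positivity), exp_log (by norm_num)]
    have : (r : ℝ) ≤ 2 * L := by exact_mod_cast hr2.le
    exact mul_le_mul_of_nonneg_left this (log_nonneg (by norm_num))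
  · set m := r / L with hm
    have hmr : L * m ≤ r := Nat.mul_div_le r L
    have h2 : ((2 : ℝ)) ^ m ≤ (ball S r).card := by
      exact_mod_cast (hpow m).trans (Finset.card_le_card (ball_mono hmr))
    refine le_trans ?_ h2
    rw [← exp_log (by norm_num : (0 : ℝ) < 2), ← exp_nat_mul]
    refine exp_le_exp.2 ?_
    rw [exp_log (by norm_num), div_mul_eq_mul_div, div_le_iff₀ (by positivity)]
    have h3 : (r : ℝ) ≤ L * (m + 1) := by
      have := (Nat.lt_mul_div_succ r (by omega : 0 < L)).le
      exact_mod_cast this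
    have h4 : (1 : ℝ) ≤ m := by
      exact_mod_cast (Nat.le_div_iff_mul_le (by omega : 0 < L)).2 (by omega)
    nlinarith [mul_le_mul_of_nonneg_left h3 (log_nonneg (by norm_num : (1 : ℝ) ≤ 2)),
      mul_le_mul_of_nonneg_left h4 (mul_nonneg hL0.le (log_nonneg (by norm_num : (1 : ℝ) ≤ 2)))]

/-- A nonamenable Cayley graph grows exponentially. -/
theorem exists_exp_of_not_amenable (hS : Gens S) (h : ¬Zd.Amenable (cayley S)) :
    ∃ c : ℝ, 0 < c ∧ ∀ r : ℕ, 1 ≤ r → exp (c * r) ≤ ((ball S r).card : ℝ) := by
  rw [Zd.Amenable] at h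
  push Not at h
  obtain ⟨ε, hε, h⟩ := h
  refine ⟨log (1 + ε), log_pos (by linarith), fun r hr => ?_⟩
  clear hr
  rw [mul_comm, exp_nat_mul, exp_log (by linarith)]
  induction r with
  | zero => simp [ball]
  | succ r ih =>
    have h1 := (h (ball S r) ⟨1, one_mem_ball r⟩).le
    have h2 : vertexBoundary (cayley S) (ball S r) ⊆ ↑(ball S (r + 1) \ ball S r) := by
      rintro v ⟨hv, u, hu, huv⟩
      refine Finset.mem_coe.2 (Finset.mem_sdiff.2 ⟨?_, hv⟩)
      rw [ball, Finset.mem_union, Finset.mem_image]
      exact Or.inr ⟨(u, u⁻¹ * v), Finset.mem_product.2 ⟨hu, hS.adj.1 huv⟩, mul_inv_cancel_left u v⟩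
    have h3 := Set.ncard_le_ncard h2 (Finset.finite_toSet _)
    rw [Set.ncard_coe_finset, Finset.card_sdiff_of_subset (ball_mono r.le_succ)] at h3
    have h4 : ((vertexBoundary (cayley S) (ball S r)).ncard : ℝ)
        ≤ ((ball S (r + 1)).card : ℝ) - (ball S r).card := by
      rw [← Nat.cast_sub (Finset.card_le_card (ball_mono r.le_succ))]
      exact_mod_cast h3
    rw [pow_succ]
    nlinarith [pow_nonneg (by linarith : (0 : ℝ) ≤ 1 + ε) r]

/-- A virtual map onto `ℤ ^ 2` suffices, amenable or not. -/
theorem critical_of_vz2 (hS : Gens S) [Infinite Γ] (hc : (cayley S).Connected) (h : VZ2 Γ) :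
    pc (cayley S) < 1 ∧ ∀ p : unitInterval, (p : ℝ) = pc (cayley S) →
      perc (cayley S) p (hasInfinite (cayley S)) = 0 := by
  obtain ⟨H, hH, f, hf⟩ := h
  obtain ⟨Ch⟩ := Zt.chart_of_map hS H f hf
  have hl := hS.labelling.listing
  have hpc := Zt.pc_lt_one hl hc Ch
  refine ⟨hpc, fun p hp => ?_⟩
  by_cases ha : Zd.Amenable (cayley S)
  · exact Zt.critical_of_chart hl hc ha Ch hpc p hp
  · obtain ⟨c, hc0, h⟩ := exists_exp_of_not_amenable hS ha
    exact critical_of_exponential hS hc hpc hc0 h p hp

/-- No percolation at the critical point when every infinite finitely generated subgroup is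
virtually indicable. -/
theorem critical_of_hvind (hS : Gens S) [Infinite Γ] (hc : (cayley S).Connected) (h : HVInd Γ)
    (hpc : pc (cayley S) < 1) (p : unitInterval) (hp : (p : ℝ) = pc (cayley S)) :
    perc (cayley S) p (hasInfinite (cayley S)) = 0 := by
  have : Group.FG Γ := Zt.fg_of_connected hS hc
  obtain ⟨x, hx⟩ | hf | hz := trichotomy h
  · exact absurd hpc (not_pc_lt_one hS hc x hx)
  · obtain ⟨c, hc0, h⟩ := exists_exp_of_freePair hS hc hf
    exact critical_of_exponential hS hc hpc hc0 h p hp
  · exact (critical_of_vz2 hS hc hz).2 p hp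

end Vale.Agent.P151.EA
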