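import Mathlib

/-!
# An integer invertible matrix fixes a covector up to a power, or expands one

Kronecker's theorem applied to the characteristic polynomial.
-/

namespace Vale.Agent.P151.EA

open Polynomial Matrix

/-- Either a power fixes a nonzero integer covector, or some complex covector is expanded. -/
theorem matrix_dichotomy {n : ℕ} (hn : 0 < n) (M N : Matrix (Fin n) (Fin n) ℤ) (hMN : M * N = 1) :
    (∃ (k : ℕ) (w : Fin n → ℤ), 0 < k ∧ w ≠ 0 ∧ w ᵥ* M ^ k = w) ∨
      ∃ (μ : ℂ) (c : Fin n → ℂ), 1 < ‖μ‖ ∧ c ≠ 0 ∧ c ᵥ* M.map (Int.castRingHom ℂ) = μ • c := by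
  classical
  set f := Int.castRingHom ℂ
  set A := M.map f with hA
  have hAN : A * N.map f = 1 := by
    rw [hA, ← Matrix.map_mul, hMN]
    simp
  have hP : M.charpoly.map f = A.charpoly := (Matrix.charpoly_map M f).symm
  have heig : ∀ z ∈ A.charpoly.roots, ∃ c : Fin n → ℂ, c ≠ 0 ∧ c ᵥ* A = z • c := by
    intro z hz
    have h0 : (Matrix.scalar (Fin n) z - A).det = 0 := by
      rw [← eval_charpoly]
      exact (mem_roots A.charpoly_monic.ne_zero).1 hz
    obtain ⟨c, hc, hcv⟩ := exists_vecMul_eq_zero_iff.2 h0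
    refine ⟨c, hc, ?_⟩
    rw [vecMul_sub, sub_eq_zero, scalar_apply] at hcv
    rw [← hcv]
    ext i
    simp [vecMul_diagonal, mul_comm]
  by_cases hbig : ∃ z ∈ A.charpoly.roots, 1 < ‖z‖
  · obtain ⟨z, hz, hz1⟩ := hbig
    obtain ⟨c, hc, hcA⟩ := heig z hz
    exact Or.inr ⟨z, c, hz1, hc, hcA⟩
  push Not at hbig
  left
  have hmah : (M.charpoly.map f).mahlerMeasure = 1 := by
    rw [hP, mahlerMeasure_eq_leadingCoeff_mul_prod_roots, A.charpoly_monic.leadingCoeff]
    rw [norm_one, one_mul]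
    exact Multiset.prod_eq_one fun x hx => by
      obtain ⟨a, ha, rfl⟩ := Multiset.mem_map.1 hx
      exact max_eq_left (hbig a ha)
  obtain ⟨z, hz⟩ : ∃ z, z ∈ A.charpoly.roots := by
    have hd : A.charpoly.degree ≠ 0 := by
      rw [charpoly_degree_eq_dim, Fintype.card_fin]
      exact_mod_cast hn.ne'
    obtain ⟨z, hz⟩ := IsAlgClosed.exists_root A.charpoly hd
    exact ⟨z, (mem_roots A.charpoly_monic.ne_zero).2 hz⟩
  obtain ⟨c, hc, hcA⟩ := heig z hz
  have hz0 : z ≠ 0 := by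
    rintro rfl
    have := congrArg (fun v => v ᵥ* N.map f) hcA
    simp only [vecMul_vecMul, hAN, vecMul_one, zero_smul, zero_vecMul] at this
    exact hc this
  have hza : z ∈ M.charpoly.aroots ℂ := by
    rw [aroots, show (algebraMap ℤ ℂ) = f from RingHom.ext_int _ _, hP]
    exact hz
  obtain ⟨k, hk, hzk⟩ := pow_eq_one_of_mahlerMeasure_eq_one hmah hz0 hza
  have hck : ∀ m : ℕ, c ᵥ* A ^ m = z ^ m • c := by
    intro m
    induction m with
    | zero => simp
    | succ m ih => rw [pow_succ, ← vecMul_vecMul, ih, smul_vecMul, hcA, smul_smul, pow_succ]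
  have hdet : (M ^ k - 1).det = 0 := by
    have h1 : (A ^ k - 1).det = 0 :=
      exists_vecMul_eq_zero_iff.1 ⟨c, hc, by rw [vecMul_sub, hck, hzk, one_smul, vecMul_one, sub_self]⟩
    have e : A ^ k - 1 = f.mapMatrix (M ^ k - 1) := by
      rw [map_sub, map_pow, map_one]
      rfl
    rw [e, ← RingHom.map_det] at h1
    exact (map_eq_zero_iff f f.injective_int).1 h1
  obtain ⟨w, hw, hwM⟩ := exists_vecMul_eq_zero_iff.2 hdet
  rw [vecMul_sub, vecMul_one, sub_eq_zero] at hwM
  exact ⟨k, w, hk, hw, hwM⟩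

end Vale.Agent.P151.EA
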