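import Mathlib

/-!
# Free semigroups, and Milnor's lemma on kernels of maps onto the integers

A pair of elements generates a free semigroup when words of equal length are distinct. If a
finitely generated group maps onto `ℤ` and the kernel is not finitely generated, it has such a
pair.
-/

namespace Vale.Agent.P151.EA

open Subgroup

variable {G : Type} [Group G]

/-- The product of a word in two letters. -/
def word (a b : G) (l : List Bool) : G := (l.map fun e => if e then a else b).prod

/-- Words of equal length in `a` and `b` are distinct. -/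
def FreePair (a b : G) : Prop :=
  ∀ l l' : List Bool, l.length = l'.length → word a b l = word a b l' → l = l'

/-- The group has a free pair. -/
def HasFreePair (G : Type) [Group G] : Prop := ∃ a b : G, FreePair a b

theorem word_map {G' : Type} [Group G'] (f : G →* G') (a b : G) (l : List Bool) :
    f (word a b l) = word (f a) (f b) l := by
  rw [word, word, map_list_prod, List.map_map]
  congr 1
  exact List.map_congr_left fun e _ => by cases e <;> rfl

theorem HasFreePair.of_injective {G' : Type} [Group G'] (f : G →* G') (hf : Function.Injective f)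
    (h : HasFreePair G) : HasFreePair G' := by
  obtain ⟨a, b, hab⟩ := h
  refine ⟨f a, f b, fun l l' hl he => hab l l' hl (hf ?_)⟩
  rwa [word_map, word_map]

theorem HasFreePair.of_surjective {G' : Type} [Group G'] (f : G →* G')
    (hf : Function.Surjective f) (h : HasFreePair G') : HasFreePair G := by
  obtain ⟨a, b, hab⟩ := h
  obtain ⟨a', rfl⟩ := hf a
  obtain ⟨b', rfl⟩ := hf b
  exact ⟨a', b', fun l l' hl he => hab l l' hl (by rw [← word_map, ← word_map, he])⟩

/-- The conjugate by the `j`-th power. -/
def cj (t a : G) (j : ℕ) : G := t ^ j * a * (t ^ j)⁻¹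

/-- The product of the conjugates selected by a word, in increasing order. -/
def inner (t a : G) : List Bool → G
  | [] => 1
  | e :: l => (if e then a else 1) * (t * inner t a l * t⁻¹)

theorem word_eq_inner (t a : G) (l : List Bool) :
    word (a * t) t l = inner t a l * t ^ l.length := by
  induction l with
  | nil => simp [word, inner]
  | cons e l ih =>
    simp only [word] at ih
    simp only [word, List.map_cons, List.prod_cons, ih, inner, List.length_cons, pow_succ']
    cases e <;> simp [mul_assoc]

theorem inner_append (t a : G) (l : List Bool) (e : Bool) :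
    inner t a (l ++ [e]) = inner t a l * (if e then cj t a l.length else 1) := by
  induction l with
  | nil => cases e <;> simp [inner, cj]
  | cons d l ih =>
    simp only [List.cons_append, inner, ih, List.length_cons, cj, pow_succ']
    cases e <;> simp [mul_assoc]

theorem inner_mem (t a : G) (l : List Bool) :
    inner t a l ∈ closure (cj t a '' {j | j < l.length}) := by
  induction l using List.reverseRecOn with
  | nil => exact one_mem _
  | append_singleton l e ih =>
    rw [inner_append]
    have hsub : closure (cj t a '' {j | j < l.length})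
        ≤ closure (cj t a '' {j | j < (l ++ [e]).length}) := by
      refine closure_mono (Set.image_mono fun j hj => ?_)
      simp only [Set.mem_ofPred_eq, List.length_append, List.length_singleton] at hj ⊢
      omega
    refine mul_mem (hsub ih) ?_
    cases e
    · exact one_mem _
    · exact subset_closure ⟨l.length, by simp, rfl⟩

/-- Two different words with the same inner product express a conjugate by earlier ones. -/
theorem exists_cj_mem (t a : G) : ∀ l l' : List Bool, l.length = l'.length → l ≠ l' →
    inner t a l = inner t a l' → ∃ i, cj t a i ∈ closure (cj t a '' {j | j < i}) := by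
  intro l
  induction l using List.reverseRecOn with
  | nil => exact fun l' hl hne _ => absurd (List.length_eq_zero_iff.1 hl.symm).symm hne
  | append_singleton l e ih =>
    intro l' hl hne he
    rcases List.eq_nil_or_concat l' with rfl | ⟨m, d, rfl⟩
    · simp at hl
    rw [List.concat_eq_append] at hl hne he
    have hlen : l.length = m.length := by simpa using hl
    rw [inner_append, inner_append, ← hlen] at he
    by_cases hed : e = d
    · subst hed
      exact ih m hlen (fun h => hne (by rw [h])) (mul_right_cancel he)
    · refine ⟨l.length, ?_⟩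
      have h1 := inner_mem t a l
      have h2 : inner t a m ∈ closure (cj t a '' {j | j < l.length}) := hlen ▸ inner_mem t a m
      cases e <;> cases d <;> first | exact absurd rfl hed | skip
      · have e' : cj t a l.length = (inner t a m)⁻¹ * inner t a l := by
          simp only [Bool.false_eq_true, if_false, if_true, mul_one] at he
          rw [he, inv_mul_cancel_left]
        rw [e']
        exact mul_mem (inv_mem h2) h1
      · have e' : cj t a l.length = (inner t a l)⁻¹ * inner t a m := by
          simp only [Bool.false_eq_true, if_false, if_true, mul_one] at he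
          rw [← he, inv_mul_cancel_left]
        rw [e']
        exact mul_mem (inv_mem h1) h2

theorem cj_succ (t a : G) (j : ℕ) : cj t a (j + 1) = t * cj t a j * t⁻¹ := by
  simp [cj, pow_succ', mul_assoc]

/-- Without a free pair the forward conjugates lie in a finitely generated subgroup. -/
theorem cj_mem_of_no_pair (h : ¬HasFreePair G) (t a : G) :
    ∃ N, ∀ j, cj t a j ∈ closure (cj t a '' {j | j < N}) := by
  have hex : ∃ l l' : List Bool, l.length = l'.length ∧ l ≠ l' ∧
      inner t a l = inner t a l' := by
    by_contra hcon
    refine h ⟨a * t, t, fun l l' hl he => by_contra fun hne => hcon ⟨l, l', hl, hne, ?_⟩⟩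
    rw [word_eq_inner, word_eq_inner, hl] at he
    exact mul_right_cancel he
  obtain ⟨l, l', hl, hne, he⟩ := hex
  obtain ⟨i, hi⟩ := exists_cj_mem t a l l' hl hne he
  refine ⟨i, fun j => ?_⟩
  induction j with
  | zero =>
    rcases Nat.eq_zero_or_pos i with rfl | h0
    · exact hi
    · exact subset_closure ⟨0, h0, rfl⟩
  | succ j ih =>
    have hle : (closure (cj t a '' {j | j < i})).map (MulAut.conj t).toMonoidHom
        ≤ closure (cj t a '' {j | j < i}) := by
      rw [MonoidHom.map_closure, closure_le]
      rintro _ ⟨_, ⟨k, hk, rfl⟩, rfl⟩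
      have hk' : (k : ℕ) < i := hk
      show t * cj t a k * t⁻¹ ∈ _
      rw [← cj_succ]
      rcases Nat.lt_or_ge (k + 1) i with h' | h'
      · exact subset_closure ⟨k + 1, h', rfl⟩
      · rw [show k + 1 = i by omega]
        exact hi
    exact hle ⟨cj t a j, ih, by simp [cj_succ]⟩

/-- Milnor's lemma: the kernel of a map onto `ℤ` is finitely generated, or there is a free
pair. -/
theorem fg_ker (h : ¬HasFreePair G) [Group.FG G] (f : G →* Multiplicative ℤ) {t : G}
    (ht : f t = Multiplicative.ofAdd 1) : Group.FG f.ker := by
  classical
  obtain ⟨S, hS⟩ := Group.fg_iff.1 ‹Group.FG G›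
  set e : G → ℤ := fun g => Multiplicative.toAdd (f g) with he
  have hte : ∀ n : ℤ, f (t ^ n) = Multiplicative.ofAdd n := fun n => by
    rw [map_zpow, ht, ← ofAdd_zsmul, smul_eq_mul, mul_one]
  set red : G → G := fun g => g * t ^ (-e g) with hred
  have hredk : ∀ g, red g ∈ f.ker := fun g => by
    rw [MonoidHom.mem_ker, map_mul, hte, he, ofAdd_neg, ofAdd_toAdd, mul_inv_cancel]
  choose N hN using fun a => cj_mem_of_no_pair h t a
  choose N' hN' using fun a => cj_mem_of_no_pair h t⁻¹ a
  set F : Set G := ⋃ s ∈ S, cj t (red s) '' {j | j < N (red s)} ∪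
    cj t⁻¹ (red s) '' {j | j < N' (red s)} with hF
  have hFfin : F.Finite := hS.2.biUnion fun s _ =>
    ((Set.finite_lt_nat _).image _).union ((Set.finite_lt_nat _).image _)
  set K' := closure F with hK'
  have hconj : ∀ s ∈ S, ∀ j : ℤ, t ^ j * red s * (t ^ j)⁻¹ ∈ K' := by
    intro s hs j
    have hsub1 : closure (cj t (red s) '' {j | j < N (red s)}) ≤ K' :=
      closure_mono fun x hx => Set.mem_biUnion hs (Or.inl hx)
    have hsub2 : closure (cj t⁻¹ (red s) '' {j | j < N' (red s)}) ≤ K' :=
      closure_mono fun x hx => Set.mem_biUnion hs (Or.inr hx)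
    obtain ⟨n, rfl | rfl⟩ := j.eq_nat_or_neg
    · rw [zpow_natCast]
      exact hsub1 (hN (red s) n)
    · rw [zpow_neg, zpow_natCast, ← inv_pow]
      exact hsub2 (hN' (red s) n)
  have hK'le : K' ≤ f.ker := by
    rw [hK', closure_le]
    intro x hx
    simp only [hF, Set.mem_iUnion, Set.mem_union, Set.mem_image] at hx
    obtain ⟨s, -, ⟨j, -, rfl⟩ | ⟨j, -, rfl⟩⟩ := hx <;>
      exact (MonoidHom.normal_ker f).conj_mem _ (hredk s) _
  -- the generators of the kernel are closed under the shift
  have hnorm : ∀ j : ℤ, K'.map (MulAut.conj (t ^ j)).toMonoidHom ≤ K' := by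
    intro j
    rw [hK', MonoidHom.map_closure, closure_le]
    rintro _ ⟨x, hx, rfl⟩
    simp only [hF, Set.mem_iUnion, Set.mem_union, Set.mem_image] at hx
    obtain ⟨s, hs, ⟨i, -, rfl⟩ | ⟨i, -, rfl⟩⟩ := hx
    · show t ^ j * cj t (red s) i * (t ^ j)⁻¹ ∈ K'
      have := hconj s hs (j + i)
      simpa [cj, zpow_add, mul_assoc] using this
    · show t ^ j * cj t⁻¹ (red s) i * (t ^ j)⁻¹ ∈ K'
      have := hconj s hs (j + -(i : ℤ))
      simpa [cj, zpow_add, mul_assoc] using this
  let M : Subgroup G :=
    { carrier := {g | red g ∈ K'}
      one_mem' := by simp [hred, he]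
      mul_mem' := fun {g g'} hg hg' => by
        have h1 : t ^ e g * red g' * (t ^ e g)⁻¹ ∈ K' := hnorm (e g) ⟨_, hg', rfl⟩
        have := mul_mem (show red g ∈ K' from hg) h1
        show red (g * g') ∈ K'
        have e1 : e (g * g') = e g + e g' := by simp [he]
        simpa [hred, e1, zpow_add, mul_assoc] using this
      inv_mem' := fun {g} hg => by
        have h1 : t ^ (-(e g)) * (red g)⁻¹ * (t ^ (-(e g)))⁻¹ ∈ K' :=
          hnorm (-(e g)) ⟨_, inv_mem (show red g ∈ K' from hg), rfl⟩
        show red g⁻¹ ∈ K'
        have e1 : e g⁻¹ = -(e g) := by simp [he]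
        simpa [hred, e1, mul_assoc] using h1 }
  have hM : ∀ g, g ∈ M := fun g => by
    have : closure S ≤ M := (closure_le _).2 fun s hs => by
      show red s ∈ K'
      simpa using hconj s hs 0
    exact this (hS.1 ▸ mem_top g)
  have hker : f.ker = K' := le_antisymm (fun g hg => by
    have h1 : red g ∈ K' := hM g
    have h2 : e g = 0 := by simp [he, MonoidHom.mem_ker.1 hg]
    simpa [hred, h2] using h1) hK'le
  rw [hker]
  exact (Group.fg_iff_subgroup_fg _).2 ⟨hFfin.toFinset, by rw [hFfin.coe_toFinset]⟩

end Vale.Agent.P151.EA
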