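import Vale.Agent.P151.EA.Torus

/-!
# Virtually indicable groups, elementary amenable groups

A finitely generated group all of whose infinite finitely generated subgroups are virtually
indicable has a cyclic subgroup of finite index, a free pair, or a virtual map onto `ℤ ^ 2`.
Elementary amenable groups and virtually solvable groups are of this kind.
-/

namespace Vale.Agent.P151.EA

open Subgroup commutatorElement

/-- Every infinite finitely generated subgroup maps virtually onto `ℤ`. -/
def HVInd (G : Type) [Group G] : Prop :=
  ∀ H : Subgroup G, Group.FG H → Infinite H → VInd H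

theorem exists_shift {G : Type} [Group G] (f : G →* Multiplicative ℤ)
    (hf : Function.Surjective f) : ∃ t, f t = Multiplicative.ofAdd 1 :=
  hf _

/-- The structure theorem. -/
theorem trichotomy {G : Type} [Group G] [Group.FG G] [Infinite G] (h : HVInd G) :
    VCyc G ∨ HasFreePair G ∨ VZ2 G := by
  have htop : VInd (⊤ : Subgroup G) := h ⊤ inferInstance (Subgroup.topEquiv.symm.toEquiv.infinite_iff.1 ‹_›)
  obtain ⟨H', hH', f', hf'⟩ := htop
  set H : Subgroup G := H'.map (⊤ : Subgroup G).subtype with hHdef
  have hH : H.FiniteIndex := finiteIndex_map_subtype ⟨by simp⟩ hH'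
  set f : H →* Multiplicative ℤ :=
    f'.comp (H'.equivMapOfInjective _ (⊤ : Subgroup G).subtype_injective).symm.toMonoidHom with hfdef
  have hf : Function.Surjective f :=
    hf'.comp (H'.equivMapOfInjective _ (⊤ : Subgroup G).subtype_injective).symm.surjective
  have : Group.FG H := inferInstance
  obtain ⟨t, ht⟩ := hf (Multiplicative.ofAdd 1)
  by_cases hpair : HasFreePair H
  · exact Or.inr (Or.inl (hpair.of_injective H.subtype H.subtype_injective))
  have hker : Group.FG f.ker := fg_ker hpair f ht
  rcases finite_or_infinite f.ker with hfin | hinf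
  · refine Or.inl (VCyc.of_subgroup hH ⟨t, ?_⟩)
    have hsurj : Function.Surjective fun x : f.ker => ((x : H) : H ⧸ zpowers t) := by
      intro q
      obtain ⟨g, rfl⟩ := QuotientGroup.mk_surjective q
      refine ⟨⟨g * t ^ (-(f g).toAdd), ?_⟩, QuotientGroup.eq.2 ⟨(f g).toAdd, ?_⟩⟩
      · rw [MonoidHom.mem_ker]
        exact Multiplicative.toAdd.injective (by simp [ht])
      · simp
    have := Finite.of_surjective _ hsurj
    exact finiteIndex_of_finite_quotient
  have hK : VInd f.ker := by
    set K' := f.ker.map H.subtype
    let e : f.ker ≃* K' := f.ker.equivMapOfInjective _ H.subtype_injective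
    have hfg : Group.FG K' := Group.fg_of_surjective (f := e.toMonoidHom) e.surjective
    obtain ⟨L, hL, g, hg⟩ := h K' hfg (e.toEquiv.infinite_iff.1 hinf)
    refine ⟨L.comap e.toMonoidHom, ?_, g.comp (e.toMonoidHom.subgroupComap L), ?_⟩
    · exact ⟨by rw [L.index_comap_of_surjective (f := e.toMonoidHom) e.surjective]; exact hL.index_ne_zero⟩
    · exact hg.comp (MonoidHom.subgroupComap_surjective_of_surjective _ _ e.surjective)
  rcases torus f ht hK with h1 | h1
  · exact absurd h1 hpair
  · exact Or.inr (Or.inr (h1.of_subgroup hH))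

/-- Infinite finitely generated abelian groups map onto `ℤ`. -/
theorem vind_of_comm (G : Type) [Group G] (hcomm : ∀ a b : G, a * b = b * a) [Group.FG G]
    [Infinite G] : VInd G := by
  classical
  let inst : CommGroup G := { ‹Group G› with mul_comm := hcomm }
  obtain ⟨n, ι, _, p, hp, e, ⟨φ⟩⟩ := AddCommGroup.equiv_free_prod_directSum_zmod (Additive G)
  rcases Nat.eq_zero_or_pos n with rfl | hn
  · exfalso
    have : ∀ i, NeZero (p i ^ e i) := fun i => ⟨pow_ne_zero _ (hp i).ne_zero⟩
    have hfin : Finite (DirectSum ι fun i => ZMod (p i ^ e i)) :=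
      Finite.of_equiv _ DFinsupp.equivFunOnFintype.symm
    have : Finite (Additive G) := Finite.of_equiv _ φ.toEquiv.symm
    have : Finite G := Finite.of_equiv _ (Additive.toMul : Additive G ≃ G)
    exact not_finite G
  · let g : Additive G →+ ℤ :=
      (Finsupp.applyAddHom (⟨0, hn⟩ : Fin n)).comp ((AddMonoidHom.fst _ _).comp φ.toAddMonoidHom)
    refine ⟨⊤, ⟨by simp⟩, (AddMonoidHom.toMultiplicativeRight g).comp (⊤ : Subgroup G).subtype, fun z => ?_⟩
    refine ⟨⟨(φ.symm (Finsupp.single ⟨0, hn⟩ z.toAdd, 0)).toMul, trivial⟩, ?_⟩
    refine Multiplicative.toAdd.injective ?_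
    simp [g]

theorem HVInd.of_comm (G : Type) [Group G] (hcomm : ∀ a b : G, a * b = b * a) : HVInd G :=
  fun H _ _ => vind_of_comm H fun a b => Subtype.ext (hcomm a b)

theorem HVInd.of_finite (G : Type) [Group G] [Finite G] : HVInd G :=
  fun H _ hH => absurd (inferInstance : Finite H) hH.not_finite

theorem HVInd.of_cover (G : Type) [Group G] (H : Finset G → Subgroup G)
    (hsub : ∀ F : Finset G, (F : Set G) ⊆ H F) (h : ∀ F, HVInd (H F)) : HVInd G := by
  intro K hK hinf
  obtain ⟨S, hS⟩ := (Group.fg_iff_subgroup_fg K).1 hK
  have hle : K ≤ H S := by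
    rw [← hS, closure_le]
    exact hsub S
  set e : K.subgroupOf (H S) ≃* K := subgroupOfEquivOfLe hle
  have hfg : Group.FG (K.subgroupOf (H S)) := Group.fg_of_surjective (f := e.symm.toMonoidHom) e.symm.surjective
  obtain ⟨L, hL, g, hg⟩ := h S (K.subgroupOf (H S)) hfg (e.toEquiv.infinite_iff.2 hinf)
  refine ⟨L.comap e.symm.toMonoidHom, ?_, g.comp (e.symm.toMonoidHom.subgroupComap L), ?_⟩
  · exact ⟨by rw [L.index_comap_of_surjective (f := e.symm.toMonoidHom) e.symm.surjective]; exact hL.index_ne_zero⟩
  · exact hg.comp (MonoidHom.subgroupComap_surjective_of_surjective _ _ e.symm.surjective)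

theorem VInd.of_surjective {G Q : Type} [Group G] [Group Q] (π : G →* Q)
    (hπ : Function.Surjective π) (h : VInd Q) : VInd G := by
  obtain ⟨L, hL, g, hg⟩ := h
  exact ⟨L.comap π, ⟨by rw [L.index_comap_of_surjective hπ]; exact hL.index_ne_zero⟩,
    g.comp (π.subgroupComap L), hg.comp (MonoidHom.subgroupComap_surjective_of_surjective _ _ hπ)⟩

theorem HVInd.of_extension (G : Type) [Group G] (N : Subgroup G) [N.Normal] (hN : HVInd N)
    (hQ : HVInd (G ⧸ N)) : HVInd G := by
  intro K hK hinf
  set π : K →* G ⧸ N := (QuotientGroup.mk' N).comp K.subtype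
  have hfgR : Group.FG π.range := Group.fg_of_surjective π.rangeRestrict_surjective
  rcases finite_or_infinite π.range with hfin | hinf'
  · have hker : π.ker.FiniteIndex := finiteIndex_ker π
    have hfg : Group.FG π.ker := inferInstance
    have hkinf : Infinite π.ker := by
      by_contra hcon
      rw [not_infinite_iff_finite] at hcon
      have : Finite (K ⧸ π.ker) := finite_quotient_of_finiteIndex
      exact hinf.not_finite (Finite.of_equiv ((K ⧸ π.ker) × π.ker) Subgroup.groupEquivQuotientProdSubgroup.symm)
    let j : π.ker →* N :=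
      { toFun := fun x => ⟨((x : K) : G), (QuotientGroup.eq_one_iff _).1 (MonoidHom.mem_ker.1 x.2)⟩
        map_one' := rfl
        map_mul' := fun _ _ => rfl }
    have hj : Function.Injective j := fun a b hab =>
      Subtype.ext (Subtype.ext (congrArg (fun u : N => (u : G)) hab))
    let e : π.ker ≃* j.range := MonoidHom.ofInjective hj
    obtain ⟨L, hL, g, hg⟩ := hN j.range (Group.fg_of_surjective (f := e.toMonoidHom) e.surjective)
      (e.toEquiv.infinite_iff.1 hkinf)
    exact (VInd.of_surjective e.toMonoidHom e.surjective ⟨L, hL, g, hg⟩).of_subgroup hker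
  · exact VInd.of_surjective π.rangeRestrict π.rangeRestrict_surjective (hQ _ hfgR hinf')

/-- The class of elementary amenable groups: the smallest class containing finite and abelian
groups and closed under extensions and directed unions. -/
inductive ElementaryAmenable : (G : Type) → [Group G] → Prop
  | finite (G : Type) [Group G] (h : Finite G) : ElementaryAmenable G
  | abelian (G : Type) [Group G] (h : ∀ a b : G, a * b = b * a) : ElementaryAmenable G
  | extension (G : Type) [Group G] (N : Subgroup G) [N.Normal] (hN : ElementaryAmenable N)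
      (hQ : ElementaryAmenable (G ⧸ N)) : ElementaryAmenable G
  | union (G : Type) [Group G] (H : Finset G → Subgroup G)
      (hsub : ∀ F : Finset G, (F : Set G) ⊆ H F) (h : ∀ F, ElementaryAmenable (H F)) :
      ElementaryAmenable G

theorem ElementaryAmenable.hvind {G : Type} [hG : Group G] (h : ElementaryAmenable G) :
    HVInd G := by
  induction h with
  | finite G hfin => exact HVInd.of_finite G
  | abelian G h => exact HVInd.of_comm G h
  | extension G N _ _ ihN ihQ => exact HVInd.of_extension G N ihN ihQ
  | union G H hsub _ ih => exact HVInd.of_cover G H hsub ih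

/-- Solvable groups are elementary amenable. -/
theorem ElementaryAmenable.of_derivedSeries :
    ∀ (n : ℕ) (G : Type) [Group G], derivedSeries G n = ⊥ → ElementaryAmenable G := by
  intro n
  induction n with
  | zero =>
    intro G _ h
    rw [derivedSeries_zero] at h
    exact .abelian G fun a b => by
      have ha : a = 1 := by simpa [h] using (mem_top a)
      have hb : b = 1 := by simpa [h] using (mem_top b)
      rw [ha, hb]
  | succ n ih =>
    intro G _ h
    have hnorm : (derivedSeries G n).Normal := derivedSeries_normal G n
    refine .extension G (derivedSeries G n) (.abelian _ fun a b => ?_) ?_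
    · have : ⁅(a : G), (b : G)⁆ ∈ derivedSeries G (n + 1) := by
        rw [derivedSeries_succ]
        exact commutator_mem_commutator a.2 b.2
      rw [h, mem_bot, commutatorElement_eq_one_iff_mul_comm] at this
      exact Subtype.ext this
    · refine ih _ ?_
      rw [← map_derivedSeries_eq (QuotientGroup.mk'_surjective _) n,
        Subgroup.map_eq_bot_iff, QuotientGroup.ker_mk']

/-- Virtually solvable groups are elementary amenable. -/
theorem ElementaryAmenable.of_virtuallySolvable {G : Type} [Group G] (H : Subgroup G)
    [H.FiniteIndex] (h : Group.IsSolvable H) : ElementaryAmenable G := by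
  have hsol : Group.IsSolvable H.normalCore :=
    Group.isSolvable_of_isSolvable_injective (f := Subgroup.inclusion H.normalCore_le)
      (Subgroup.inclusion_injective _)
  obtain ⟨n, hn⟩ := hsol.solvable
  exact .extension G H.normalCore (ElementaryAmenable.of_derivedSeries n _ hn)
    (.finite _ finite_quotient_of_finiteIndex)

end Vale.Agent.P151.EA
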