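import Vale.Agent.P151.Zt.Nilpotent

/-!
# Virtual maps onto `ℤ` and `ℤ ^ 2`
-/

namespace Vale.Agent.P151.EA

open Subgroup Zt

variable {G : Type} [Group G]

/-- A subgroup of finite index maps onto `ℤ`. -/
def VInd (G : Type) [Group G] : Prop :=
  ∃ H : Subgroup G, H.FiniteIndex ∧ ∃ f : H →* Multiplicative ℤ, Function.Surjective f

/-- A subgroup of finite index maps onto `ℤ ^ 2`. -/
def VZ2 (G : Type) [Group G] : Prop :=
  ∃ H : Subgroup G, H.FiniteIndex ∧ ∃ f : H →* Z2, Function.Surjective f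

/-- A cyclic subgroup has finite index. -/
def VCyc (G : Type) [Group G] : Prop := ∃ x : G, (zpowers x).FiniteIndex

/-- A nonzero map to `ℤ` gives a map onto `ℤ`. -/
theorem exists_surjective_of_ne_one (f : G →* Multiplicative ℤ) (hf : f ≠ 1) :
    ∃ g : G →* Multiplicative ℤ, Function.Surjective g := by
  obtain ⟨d, hd⟩ := Int.subgroup_cyclic (Subgroup.toAddSubgroup' f.range)
  have hmem : ∀ z : ℤ, Multiplicative.ofAdd z ∈ f.range ↔ d ∣ z := fun z => by
    have : z ∈ Subgroup.toAddSubgroup' f.range ↔ z ∈ AddSubgroup.closure {d} := by rw [hd]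
    rw [AddSubgroup.mem_closure_singleton] at this
    refine Iff.trans this ?_
    simp [dvd_def, smul_eq_mul, mul_comm, eq_comm]
  have hd0 : d ≠ 0 := fun h => hf <| MonoidHom.ext fun x => by
    have := (hmem (f x).toAdd).1 ⟨x, rfl⟩
    rw [h, zero_dvd_iff] at this
    exact Multiplicative.toAdd.injective this
  refine ⟨MonoidHom.mk' (fun x => Multiplicative.ofAdd ((f x).toAdd / d)) fun x y => ?_, fun z => ?_⟩
  · obtain ⟨a, ha⟩ := (hmem (f x).toAdd).1 ⟨x, rfl⟩
    rw [map_mul, toAdd_mul, Int.add_ediv_of_dvd_left ⟨a, ha⟩, ofAdd_add]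
  · obtain ⟨x, hx⟩ := (hmem (d * z.toAdd)).2 (dvd_mul_right _ _)
    exact ⟨x, by simp [hx, hd0]⟩

theorem vind_of_ne_one (H : Subgroup G) (hH : H.FiniteIndex) (f : H →* Multiplicative ℤ)
    (hf : f ≠ 1) : VInd G :=
  ⟨H, hH, exists_surjective_of_ne_one f hf⟩

/-- Finite index in finite index. -/
theorem finiteIndex_map_subtype {H : Subgroup G} (hH : H.FiniteIndex) {K : Subgroup H}
    (hK : K.FiniteIndex) : (K.map H.subtype).FiniteIndex :=
  ⟨by rw [index_map_subtype]; exact mul_ne_zero hK.index_ne_zero hH.index_ne_zero⟩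

theorem VZ2.of_subgroup {H : Subgroup G} (hH : H.FiniteIndex) (h : VZ2 H) : VZ2 G := by
  obtain ⟨K, hK, f, hf⟩ := h
  refine ⟨K.map H.subtype, finiteIndex_map_subtype hH hK,
    f.comp (K.equivMapOfInjective H.subtype H.subtype_injective).symm.toMonoidHom, ?_⟩
  exact hf.comp (K.equivMapOfInjective H.subtype H.subtype_injective).symm.surjective

theorem VInd.of_subgroup {H : Subgroup G} (hH : H.FiniteIndex) (h : VInd H) : VInd G := by
  obtain ⟨K, hK, f, hf⟩ := h
  refine ⟨K.map H.subtype, finiteIndex_map_subtype hH hK,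
    f.comp (K.equivMapOfInjective H.subtype H.subtype_injective).symm.toMonoidHom, ?_⟩
  exact hf.comp (K.equivMapOfInjective H.subtype H.subtype_injective).symm.surjective

theorem VCyc.of_subgroup {H : Subgroup G} (hH : H.FiniteIndex) (h : VCyc H) : VCyc G := by
  obtain ⟨x, hx⟩ := h
  refine ⟨x, ?_⟩
  have e : (zpowers x).map H.subtype = zpowers (x : G) := MonoidHom.map_zpowers _ _
  rw [← e]
  exact finiteIndex_map_subtype hH hx

/-- Two elements with independent images give a map onto `ℤ ^ 2`. -/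
theorem exists_onto_Z2 [Group.FG G] (f : G →* Z2) (a b : G)
    (hab : (f a).toAdd.1 * (f b).toAdd.2 - (f a).toAdd.2 * (f b).toAdd.1 ≠ 0) :
    ∃ g : G →* Z2, Function.Surjective g := by
  let : CommGroup f.range := { (inferInstance : Group f.range) with
    mul_comm := fun u v => Subtype.ext (mul_comm (u : Z2) v) }
  have : Group.FG f.range := Group.fg_of_surjective f.rangeRestrict_surjective
  obtain ⟨g, hg⟩ | ⟨x, hx⟩ := abelian_dichotomy f.range
  · exact ⟨g.comp f.rangeRestrict, hg.comp f.rangeRestrict_surjective⟩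
  exfalso
  obtain ⟨p, hp, -, hpa⟩ :=
    exists_pow_mem_of_index_ne_zero hx.index_ne_zero (f.rangeRestrict a)
  obtain ⟨q, hq, -, hqb⟩ :=
    exists_pow_mem_of_index_ne_zero hx.index_ne_zero (f.rangeRestrict b)
  obtain ⟨i, hi⟩ := mem_zpowers_iff.1 hpa
  obtain ⟨j, hj⟩ := mem_zpowers_iff.1 hqb
  have hi' := congrArg (fun u : f.range => (u : Z2).toAdd) hi
  have hj' := congrArg (fun u : f.range => (u : Z2).toAdd) hj
  simp [Prod.ext_iff] at hi' hj'
  refine hab ((mul_eq_zero.1 (?_ : (p : ℤ) * q * _ = 0)).resolve_left (by positivity))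
  linear_combination (-(q : ℤ) * (f b).toAdd.2) * hi'.1 + (-(i : ℤ) * (x : Z2).toAdd.1) * hj'.2
    + ((q : ℤ) * (f b).toAdd.1) * hi'.2 + ((i : ℤ) * (x : Z2).toAdd.2) * hj'.1

theorem vz2_of_indep [Group.FG G] (H : Subgroup G) (hH : H.FiniteIndex) (f : H →* Z2) (a b : H)
    (hab : (f a).toAdd.1 * (f b).toAdd.2 - (f a).toAdd.2 * (f b).toAdd.1 ≠ 0) : VZ2 G := by
  have : Group.FG H := inferInstance
  exact ⟨H, hH, exists_onto_Z2 f a b hab⟩

end Vale.Agent.P151.EA
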