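import Vale.Agent.P151.EA.Milnor
import Vale.Agent.P151.EA.Matrix
import Vale.Agent.P151.EA.Virtual

/-!
# Extensions of `ℤ` by a finitely generated group with infinite abelianisation

Such a group has a free pair or maps virtually onto `ℤ ^ 2`: the shift acts on a free abelian
quotient of a characteristic subgroup by an integer matrix.
-/

namespace Vale.Agent.P151.EA

open Subgroup Matrix Zt

/-- A finitely generated group has a subgroup of finite index that maps onto a nontrivial `ℤ ^ n`
with a kernel that every automorphism of the group preserves. -/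
theorem exists_char_quotient (K : Type) [Group K] [Group.FG K] (h : VInd K) :
    ∃ (K₀ : Subgroup K) (n : ℕ) (π : K₀ →* Multiplicative (Fin n → ℤ)), K₀.FiniteIndex ∧ 0 < n ∧
      Function.Surjective π ∧ ∀ φ : K ≃* K, ∃ hφ : ∀ x : K₀, φ x ∈ K₀,
        ∀ x : K₀, π x = 1 → π ⟨φ x, hφ x⟩ = 1 := by
  classical
  obtain ⟨K₁, hK₁, f₁, hf₁⟩ := h
  set m := K₁.index
  have hfinHom : Finite (K →* Equiv.Perm (Fin m)) := by
    obtain ⟨S, hS, hSfin⟩ := Group.fg_iff.1 ‹Group.FG K›
    have := hSfin.to_subtype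
    exact Finite.of_injective (fun ρ : K →* Equiv.Perm (Fin m) => fun s : S => ρ s) fun a b hab =>
      MonoidHom.eq_of_eqOn_dense hS fun s hs => congrFun hab ⟨s, hs⟩
  set K₀ : Subgroup K := ⨅ ρ : K →* Equiv.Perm (Fin m), ρ.ker with hK₀
  have hfi : K₀.FiniteIndex := finiteIndex_iInf fun ρ => finiteIndex_ker ρ
  have hinv : ∀ φ : K ≃* K, ∀ x : K₀, φ x ∈ K₀ := fun φ x => mem_iInf.2 fun ρ =>
    mem_iInf.1 x.2 (ρ.comp φ.toMonoidHom)
  have hle : K₀ ≤ K₁ := by
    have hfinq : Finite (K ⧸ K₁) := finite_quotient_of_finiteIndex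
    let e : K ⧸ K₁ ≃ Fin m := Finite.equivFinOfCardEq rfl
    intro x hx
    have h1 := mem_iInf.1 hx ((e.permCongrHom.toMonoidHom).comp (MulAction.toPermHom K (K ⧸ K₁)))
    have h2 : MulAction.toPermHom K (K ⧸ K₁) x = 1 := e.permCongrHom.injective (by
      rw [map_one]; exact MonoidHom.mem_ker.1 h1)
    have h3 : x • ((1 : K) : K ⧸ K₁) = ((1 : K) : K ⧸ K₁) := Equiv.congr_fun h2 ((1 : K) : K ⧸ K₁)
    rw [MulAction.Quotient.smul_mk, smul_eq_mul, mul_one,
      eq_comm, QuotientGroup.eq] at h3
    simpa using h3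
  -- the free part of the abelianisation
  have : Group.FG K₀ := inferInstance
  have : Group.FG (Abelianization K₀) :=
    Group.fg_of_surjective (f := Abelianization.of) QuotientGroup.mk_surjective
  obtain ⟨n, ι, _, p, hp, e, ⟨φ⟩⟩ :=
    AddCommGroup.equiv_free_prod_directSum_zmod (Additive (Abelianization K₀))
  have : ∀ i, NeZero (p i ^ e i) := fun i => ⟨pow_ne_zero _ (hp i).ne_zero⟩
  have hfinT : Finite (DirectSum ι fun i => ZMod (p i ^ e i)) :=
    Finite.of_equiv _ DFinsupp.equivFunOnFintype.symm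
  let P : Additive (Abelianization K₀) →+ (Fin n → ℤ) :=
    (Finsupp.linearEquivFunOnFinite ℤ ℤ (Fin n)).toAddMonoidHom.comp
      ((AddMonoidHom.fst _ _).comp φ.toAddMonoidHom)
  let π : K₀ →* Multiplicative (Fin n → ℤ) :=
    (AddMonoidHom.toMultiplicativeRight P).comp Abelianization.of
  have hπ : Function.Surjective π := by
    intro v
    obtain ⟨a, ha⟩ : ∃ a, P a = v.toAdd :=
      ⟨φ.symm ((Finsupp.linearEquivFunOnFinite ℤ ℤ (Fin n)).symm v.toAdd, 0), by simp [P]⟩
    obtain ⟨x, hx⟩ := QuotientGroup.mk_surjective a.toMul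
    refine ⟨x, Multiplicative.toAdd.injective ?_⟩
    show P (Additive.ofMul (Abelianization.of x)) = _
    rw [← ha]
    exact congrArg P hx
  have hker : ∀ x, π x = 1 ↔ IsOfFinOrder (Abelianization.of x) := by
    intro x
    have h0 : π x = 1 ↔ (φ (Additive.ofMul (Abelianization.of x))).1 = 0 := by
      refine ⟨fun h => ?_, fun h => ?_⟩
      · refine (Finsupp.linearEquivFunOnFinite ℤ ℤ (Fin n)).injective ?_
        rw [map_zero]
        exact congrArg Multiplicative.toAdd h
      · refine Multiplicative.toAdd.injective ?_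
        show P (Additive.ofMul (Abelianization.of x)) = 0
        simp [P, h]
    rw [h0]
    constructor
    · intro h
      rw [← isOfFinAddOrder_ofMul_iff]
      obtain ⟨j, hj, hj0⟩ := (isOfFinAddOrder_of_finite
        (φ (Additive.ofMul (Abelianization.of x))).2).exists_nsmul_eq_zero
      refine isOfFinAddOrder_iff_nsmul_eq_zero.2 ⟨j, hj, φ.injective ?_⟩
      rw [map_nsmul, map_zero]
      exact Prod.ext (by simp [h]) (by simpa using hj0)
    · intro h
      rw [← isOfFinAddOrder_ofMul_iff] at h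
      obtain ⟨j, hj, hj0⟩ := h.exists_nsmul_eq_zero
      have h2 := congrArg (fun a => (φ a).1) hj0
      simp only [map_nsmul, Prod.smul_fst, map_zero, Prod.fst_zero] at h2
      ext i
      have h3 := Finsupp.ext_iff.1 h2 i
      simp only [Finsupp.smul_apply, Finsupp.zero_apply, nsmul_eq_mul, mul_eq_zero,
        Nat.cast_eq_zero] at h3
      exact h3.resolve_left (by omega)
  refine ⟨K₀, n, π, hfi, ?_, hπ, fun ψ => ⟨hinv ψ, fun x hx => ?_⟩⟩
  · by_contra hn
    obtain rfl : n = 0 := by omega
    obtain ⟨y, hy⟩ := hf₁ (Multiplicative.ofAdd 1)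
    obtain ⟨j, hj, -, hjy⟩ := exists_pow_mem_of_index_ne_zero hfi.index_ne_zero (y : K)
    set g : K₀ →* Multiplicative ℤ := f₁.comp (Subgroup.inclusion hle) with hg
    have ht : IsOfFinOrder (Abelianization.of (⟨(y : K) ^ j, hjy⟩ : K₀)) :=
      (hker _).1 (Multiplicative.toAdd.injective (funext fun i => i.elim0))
    have h1 := (Abelianization.lift g).isOfFinOrder ht
    rw [Abelianization.lift_apply_of] at h1
    have h2 : g ⟨(y : K) ^ j, hjy⟩ = Multiplicative.ofAdd (j : ℤ) := by
      show f₁ (y ^ j) = _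
      rw [map_pow, hy, ← ofAdd_nsmul, nsmul_eq_mul, mul_one]
    rw [h2, isOfFinOrder_ofAdd_iff] at h1
    obtain ⟨i, hi, hi0⟩ := h1.exists_nsmul_eq_zero
    simp at hi0
    omega
  · rw [hker] at hx ⊢
    let ψ₀ : K₀ →* K₀ :=
      { toFun := fun y => ⟨ψ y, hinv ψ y⟩
        map_one' := Subtype.ext (map_one ψ)
        map_mul' := fun a b => Subtype.ext (map_mul ψ _ _) }
    have := (Abelianization.map ψ₀).isOfFinOrder hx
    rwa [Abelianization.map_of] at this

/-- Sums with digits zero and one. -/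
def digits (μ : ℂ) : List Bool → ℂ
  | [] => 0
  | e :: l => (if e then 1 else 0) + μ * digits μ l

theorem digits_injective {μ : ℂ} (hμ : 3 ≤ ‖μ‖) : ∀ l l' : List Bool, l.length = l'.length →
    l ≠ l' → 1 / 2 ≤ ‖digits μ l - digits μ l'‖ := by
  intro l
  induction l with
  | nil => exact fun l' hl hne => absurd (List.length_eq_zero_iff.1 hl.symm).symm hne
  | cons e l ih =>
    rintro (_ | ⟨e', l'⟩) hl hne
    · simp at hl
    have hd : digits μ (e :: l) - digits μ (e' :: l')
        = ((if e then 1 else 0) - (if e' then 1 else 0)) + μ * (digits μ l - digits μ l') := by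
      simp only [digits]; ring
    rw [hd]
    by_cases hll : l = l'
    · subst hll
      cases e <;> cases e' <;> simp_all <;> norm_num
    · have h1 := ih l' (by simpa using hl) hll
      have h2 := norm_sub_norm_le (μ * (digits μ l - digits μ l'))
        (-((if e then 1 else 0) - (if e' then 1 else 0) : ℂ))
      rw [sub_neg_eq_add, norm_neg, norm_mul] at h2
      have h3 : ‖((if e then 1 else 0) - (if e' then 1 else 0) : ℂ)‖ ≤ 1 := by
        cases e <;> cases e' <;> simp
      rw [add_comm]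
      nlinarith

variable {G : Type} [Group G]

/-- The shift by the kernel of a map onto `ℤ`: a free pair or a virtual map onto `ℤ ^ 2`. -/
theorem torus [Group.FG G] (f : G →* Multiplicative ℤ) {t : G}
    (ht : f t = Multiplicative.ofAdd 1) [Group.FG f.ker] (hK : VInd f.ker) :
    HasFreePair G ∨ VZ2 G := by
  classical
  set K := f.ker with hKdef
  obtain ⟨K₀, n, π, hfi, hn, hπ, hinv⟩ := exists_char_quotient K hK
  choose hmem hpres using hinv
  -- conjugation by powers of the shift
  let cjK : ℤ → (K₀ →* K₀) := fun j =>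
    { toFun := fun x => ⟨MulAut.conjNormal (t ^ j) (x : K), hmem _ x⟩
      map_one' := Subtype.ext (map_one _)
      map_mul' := fun a b => Subtype.ext (map_mul _ _ _) }
  have hcj : ∀ (j : ℤ) (x : K₀), (((cjK j x : K₀) : K) : G) = t ^ j * ((x : K) : G) * (t ^ j)⁻¹ :=
    fun j x => MulAut.conjNormal_apply (t ^ j) (x : K)
  have hcomp : ∀ (a b : ℤ) (x : K₀), cjK a (cjK b x) = cjK (a + b) x := fun a b x => by
    apply Subtype.ext; apply Subtype.ext
    simp only [hcj, _root_.zpow_add, _root_.mul_inv_rev, mul_assoc]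
  have hzero : ∀ x : K₀, cjK 0 x = x := fun x => by
    apply Subtype.ext; apply Subtype.ext
    simp [hcj]
  set pr : K₀ → (Fin n → ℤ) := fun x => (π x).toAdd with hpr
  have hpr_mul : ∀ x y, pr (x * y) = pr x + pr y := fun x y => by simp [hpr]
  -- the matrix of a power of the shift
  choose pre hpre using fun v : Fin n → ℤ => hπ (Multiplicative.ofAdd v)
  have hpre' : ∀ v, pr (pre v) = v := fun v => by simp [hpr, hpre]
  have hwell : ∀ (j : ℤ) (x y : K₀), pr x = pr y → pr (cjK j x) = pr (cjK j y) := by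
    intro j x y h
    have h1 : π (x * y⁻¹) = 1 := by
      rw [map_mul, map_inv, mul_inv_eq_one]
      exact Multiplicative.toAdd.injective h
    have h2 : π (cjK j (x * y⁻¹)) = 1 := hpres _ _ h1
    rw [map_mul, map_inv, map_mul, map_inv, mul_inv_eq_one] at h2
    exact congrArg Multiplicative.toAdd h2
  have hmat : ∀ j : ℤ, ∃ M : Matrix (Fin n) (Fin n) ℤ, ∀ x, pr (cjK j x) = pr x ᵥ* M := by
    intro j
    let L : (Fin n → ℤ) →+ (Fin n → ℤ) := AddMonoidHom.mk' (fun v => pr (cjK j (pre v))) fun v w => by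
      rw [← hpr_mul, ← map_mul]
      exact hwell j _ _ (by rw [hpr_mul, hpre', hpre', hpre'])
    refine ⟨fun i k => L (Pi.single i 1) k, fun x => ?_⟩
    have h1 : pr (cjK j x) = L (pr x) := hwell j _ _ (hpre' _).symm
    rw [h1]
    conv_lhs => rw [pi_eq_sum_univ' (pr x)]
    rw [map_sum]
    ext k
    simp only [map_zsmul, Finset.sum_apply, Pi.smul_apply, smul_eq_mul, vecMul, dotProduct]
  obtain ⟨M, hM⟩ := hmat 1
  obtain ⟨N, hN⟩ := hmat (-1)
  have hMN : M * N = 1 := by
    refine Matrix.ext fun i k => ?_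
    have := congrFun (congrArg pr (show cjK (-1) (cjK 1 (pre (Pi.single i 1))) = pre (Pi.single i 1)
      by rw [hcomp, neg_add_cancel, hzero])) k
    rw [hN, hM, hpre', vecMul_vecMul, single_one_vecMul] at this
    rw [Matrix.one_apply, ← Pi.single_apply] at *
    simpa [Pi.single_apply, eq_comm] using this
  have hpow : ∀ (k : ℕ) (x : K₀), pr (cjK k x) = pr x ᵥ* M ^ k := by
    intro k
    induction k with
    | zero => intro x; simp [hzero]
    | succ k ih =>
      intro x
      rw [Nat.cast_succ, add_comm, ← hcomp, hM, ih, vecMul_vecMul, pow_succ]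
  have hMT : Mᵀ * Nᵀ = 1 := by rw [← transpose_mul, mul_eq_one_comm.1 hMN, transpose_one]
  rcases matrix_dichotomy hn Mᵀ Nᵀ hMT with ⟨k, w, hk, hw, hwM⟩ | ⟨μ, c, hμ, hc, hcM⟩
  · right
    rw [← transpose_pow, vecMul_transpose] at hwM
    set d : K₀ → ℤ := fun x => pr x ⬝ᵥ w with hd
    have hd_mul : ∀ x y, d (x * y) = d x + d y := fun x y => by simp [hd, hpr_mul, add_dotProduct]
    have hdk : ∀ x, d (cjK k x) = d x := fun x => by
      simp only [hd, hpow, ← dotProduct_mulVec, hwM]
    have hdj : ∀ (j : ℤ) (x : K₀), d (cjK (k * j) x) = d x := by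
      intro j
      induction j using Int.induction_on with
      | zero => intro x; rw [mul_zero, hzero]
      | succ j ih =>
        intro x
        rw [show (k : ℤ) * ((j : ℤ) + 1) = k * j + k by ring, ← hcomp, ih, hdk]
      | pred j ih =>
        intro x
        have h1 := hdk (cjK (k * (-(j : ℤ) - 1)) x)
        rw [hcomp, show (k : ℤ) + k * (-(j : ℤ) - 1) = k * -(j : ℤ) by ring, ih] at h1
        exact h1.symm
    set e : G → ℤ := fun g => (f g).toAdd with he
    have he_mul : ∀ a b, e (a * b) = e a + e b := fun a b => by simp [he]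
    have hte : ∀ j : ℤ, e (t ^ j) = j := fun j => by simp [he, ht]
    let H : Subgroup G :=
      { carrier := {g | ∃ (j : ℤ) (y : K₀), g = ((y : K) : G) * t ^ ((k : ℤ) * j)}
        one_mem' := ⟨0, 1, by simp⟩
        mul_mem' := by
          rintro _ _ ⟨j, y, rfl⟩ ⟨j', y', rfl⟩
          refine ⟨j + j', y * cjK (k * j) y', ?_⟩
          simp [hcj, mul_add, _root_.zpow_add, mul_assoc]
        inv_mem' := by
          rintro _ ⟨j, y, rfl⟩
          refine ⟨-j, cjK (k * -j) y⁻¹, ?_⟩
          simp [hcj, mul_assoc] }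
    have hHdec : ∀ g : H, ∃ (j : ℤ) (y : K₀), (g : G) = ((y : K) : G) * t ^ ((k : ℤ) * j) :=
      fun g => g.2
    choose jj yy hg using hHdec
    have huniq : ∀ (g : H) (j : ℤ) (y : K₀), (g : G) = ((y : K) : G) * t ^ ((k : ℤ) * j) →
        jj g = j ∧ yy g = y := by
      intro g j y h
      have h1 := hg g
      rw [h] at h1
      have h2 := congrArg e h1
      simp only [he_mul, hte, show ∀ z : K, e z = 0 from fun z => by
        simp [he, MonoidHom.mem_ker.1 z.2], zero_add] at h2
      have hj : j = jj g := mul_left_cancel₀ (Int.natCast_ne_zero.2 hk.ne') h2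
      rw [← hj] at h1
      exact ⟨hj.symm, (Subtype.ext (Subtype.ext (mul_right_cancel h1))).symm⟩
    let F : H →* Z2 := MonoidHom.mk' (fun g => Multiplicative.ofAdd (d (yy g), jj g)) fun g g' => by
      obtain ⟨h1, h2⟩ := huniq (g * g') (jj g + jj g') (yy g * cjK (k * jj g) (yy g')) (by
        rw [Subgroup.coe_mul, hg g, hg g']
        simp [hcj, mul_add, _root_.zpow_add, mul_assoc])
      show Multiplicative.ofAdd (d (yy (g * g')), jj (g * g')) = _
      rw [h1, h2, hd_mul, hdj, ← ofAdd_add, Prod.mk_add_mk]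
    have hHfi : H.FiniteIndex := by
      have hq : Finite (K ⧸ K₀) := finite_quotient_of_finiteIndex
      let cover : Fin k × (K ⧸ K₀) → G ⧸ H := fun iq =>
        (((iq.2.out : K) : G) * t ^ ((iq.1 : ℕ) : ℤ) : G)
      have hsurj : Function.Surjective cover := by
        intro q
        obtain ⟨g, rfl⟩ := QuotientGroup.mk_surjective q
        have hk' : (0 : ℤ) < k := Int.natCast_pos.2 hk
        set i := (e g % k).toNat with hi
        have hi' : ((i : ℕ) : ℤ) = e g % k := Int.toNat_of_nonneg (Int.emod_nonneg _ hk'.ne')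
        have hik : i < k := by
          have := Int.emod_lt_of_pos (e g) hk'
          omega
        have hxK : g * t ^ (-e g) ∈ K := by
          rw [hKdef, MonoidHom.mem_ker]
          refine Multiplicative.toAdd.injective ?_
          simp [he, ht]
        set x : K := ⟨g * t ^ (-e g), hxK⟩ with hx
        set r : K := (x : K ⧸ K₀).out with hr
        have hy : r⁻¹ * x ∈ K₀ :=
          QuotientGroup.eq.1 ((x : K ⧸ K₀).out_eq')
        refine ⟨(⟨i, hik⟩, x), QuotientGroup.eq.2 ⟨e g / k, cjK (-(i : ℤ)) ⟨r⁻¹ * x, hy⟩, ?_⟩⟩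
        have hdiv : (k : ℤ) * (e g / k) = e g + -(i : ℤ) := by
          rw [hi']; linarith [Int.mul_ediv_add_emod (e g) k]
        show ((r : G) * t ^ (i : ℤ))⁻¹ * g
          = ((cjK (-(i : ℤ)) ⟨r⁻¹ * x, hy⟩ : K₀) : K) * t ^ ((k : ℤ) * (e g / k))
        rw [hcj, hdiv, show (((r⁻¹ * x : K)) : G) = (r : G)⁻¹ * (g * t ^ (-e g)) from rfl]
        group
      have := Finite.of_surjective cover hsurj
      exact finiteIndex_of_finite_quotient
    obtain ⟨i, hi⟩ := Function.ne_iff.1 hw
    have hy₀ : d (pre (Pi.single i 1)) ≠ 0 := by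
      simp only [hd, hpre', single_dotProduct, one_mul]
      exact hi
    set a : H := ⟨((pre (Pi.single i 1) : K) : G), 0, pre (Pi.single i 1), by simp⟩ with ha
    set b : H := ⟨t ^ (k : ℤ), 1, 1, by simp⟩ with hb
    obtain ⟨ha1, ha2⟩ := huniq a 0 (pre (Pi.single i 1)) (by simp [ha])
    obtain ⟨hb1, hb2⟩ := huniq b 1 1 (by simp [hb])
    refine vz2_of_indep H hHfi F a b ?_
    show d (yy a) * jj b - jj a * d (yy b) ≠ 0
    rw [ha1, ha2, hb1]
    simpa using hy₀
  · left
    rw [transpose_map, vecMul_transpose] at hcM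
    set ψ : K₀ → ℂ := fun x => (fun i => (pr x i : ℂ)) ⬝ᵥ c with hψ
    have hψ_mul : ∀ x y, ψ (x * y) = ψ x + ψ y := fun x y => by
      simp [hψ, hpr_mul, dotProduct, add_mul, Finset.sum_add_distrib]
    have hψ1 : ∀ x, ψ (cjK 1 x) = μ * ψ x := fun x => by
      have hcast : (fun i => ((pr x ᵥ* M) i : ℂ))
          = (fun i => (pr x i : ℂ)) ᵥ* M.map (Int.castRingHom ℂ) := by
        ext i; simp [vecMul, dotProduct]
      simp only [hψ, hM, hcast, ← dotProduct_mulVec, hcM, dotProduct_smul, smul_eq_mul]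
    have hψk : ∀ (k : ℕ) (x : K₀), ψ (cjK k x) = μ ^ k * ψ x := by
      intro k
      induction k with
      | zero => intro x; simp [hzero]
      | succ k ih =>
        intro x
        rw [Nat.cast_succ, add_comm, ← hcomp, hψ1, ih, pow_succ']
        ring
    obtain ⟨i, hi⟩ := Function.ne_iff.1 hc
    set x₀ := pre (Pi.single i 1) with hx₀
    have hψx : ψ x₀ ≠ 0 := by
      have : ψ x₀ = c i := by
        simp [hψ, hx₀, hpre', dotProduct, Pi.single_apply]
      rw [this]; exact hi
    obtain ⟨k, hk⟩ := pow_unbounded_of_one_lt (3 : ℝ) hμ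
    set T := t ^ (k : ℤ) with hT
    set x : G := ((x₀ : K) : G) with hx
    have hinner : ∀ l : List Bool, ∃ y : K₀, ((y : K) : G) = inner T x l ∧
        ψ y = digits (μ ^ k) l * ψ x₀ := by
      intro l
      induction l with
      | nil => exact ⟨1, rfl, by simp [hψ, digits, hpr, dotProduct]⟩
      | cons e l ih =>
        obtain ⟨y, hy, hψy⟩ := ih
        refine ⟨(if e then x₀ else 1) * cjK k y, ?_, ?_⟩
        · cases e <;> simp [inner, hcj, hy, hT, hx]
        · rw [hψ_mul, hψk, hψy, digits]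
          cases e
          · simp [hψ, hpr, dotProduct]; ring
          · simp; ring
    refine ⟨x * T, T, fun l l' hl he => ?_⟩
    rw [word_eq_inner, word_eq_inner, hl] at he
    obtain ⟨y, hy, hψy⟩ := hinner l
    obtain ⟨y', hy', hψy'⟩ := hinner l'
    have hyy : y = y' := Subtype.ext (Subtype.ext (by rw [hy, hy']; exact mul_right_cancel he))
    rw [hyy, hψy'] at hψy
    by_contra hne
    have h1 := digits_injective (μ := μ ^ k) (by rw [norm_pow]; exact hk.le) l l' hl hne
    rw [mul_right_cancel₀ hψx hψy, sub_self, norm_zero] at h1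
    norm_num at h1

end Vale.Agent.P151.EA
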